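import Vale.Agent.P144.Bdl.B1

namespace Vale.Agent.Results.P144.Disproof

open Vale.Agent.P144

/-- Q1 is false as posed: some potential admits no data for any `λ > 0`. The hypothesis is what is
used of the theorem of Chelkak, Hongler and Izyurov on the model with `λ = 0`. -/
theorem result (J : ℝ) (hJ : 0 < J) (hCHI : CHI J) :
    (∃ V, IsPotential V ∧ ∀ lam > 0, ¬ HasData J V lam) ∧ ¬ Q1 := by
  have h : ∀ lam > 0, ¬ HasData J Vk lam := fun lam hl => no_data hJ hCHI hl
  refine ⟨⟨Vk, Vk_potential, h⟩, fun hQ => ?_⟩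
  obtain ⟨lam₀, hl₀, hall⟩ := hQ J hJ Vk Vk_potential
  refine h (lam₀ / 2) (by positivity) (hall _ ?_)
  rw [abs_of_pos (by positivity)]
  linarith

end Vale.Agent.Results.P144.Disproof
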